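import Mathlib

set_option linter.all false

/-!
# P365 T2: averaging over the good part of one stage (helper213)
-/

namespace P365T2.H213

open Set

/-- the flow data on `[0, S]`: `D` = energy, `L` = logarithmic energy, `U` = one-body entropy,
`Q` = sum of the second moments of the local energies over the scales; `ε` = all law errors -/
structure Flow (C1 CU CQ T ε S : ℝ) (D L U Q Loss Pos Gr Cnt : ℝ → ℝ) : Prop where
  D0 : ∀ τ ∈ Icc 0 S, 0 ≤ D τ
  D1 : ∀ τ ∈ Icc 0 S, D τ ≤ C1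
  Loss0 : ∀ τ ∈ Ioo 0 S, 0 ≤ Loss τ
  Pos0 : ∀ τ ∈ Ioo 0 S, 0 ≤ Pos τ
  Cnt0 : ∀ τ ∈ Ioo 0 S, 0 ≤ Cnt τ
  Gr1 : ∀ τ ∈ Ioo 0 S, Gr τ ≤ C1
  Q01 : Q 0 - Q S ≤ CQ * S
  U0 : -((T + CU) * C1) ≤ U 0
  U1 : U S ≤ (T + CU) * C1
  cD : ContinuousOn D (Icc 0 S)
  cL : ContinuousOn L (Icc 0 S)
  cU : ContinuousOn U (Icc 0 S)
  cQ : ContinuousOn Q (Icc 0 S)
  dD : ∀ τ ∈ Ioo 0 S, ∃ d, HasDerivAt D d τ ∧ d ≤ -Loss τ + ε
  dL : ∀ τ ∈ Ioo 0 S, ∃ d, HasDerivAt L d τ ∧ d ≤ Gr τ + ε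
  dU : ∀ τ ∈ Ioo 0 S, ∃ d, HasDerivAt U d τ ∧
    Pos τ / 2 - CU * D τ - T * Real.sqrt (D τ * Loss τ) - ε ≤ d
  dQ : ∀ τ ∈ Ioo 0 S, ∃ d, HasDerivAt Q d τ ∧ d ≤ -Cnt τ + CQ

/-- **good time**: `K` depends on `c, C1, CU, CQ` only -/
theorem good_time {c C1 CU CQ : ℝ} (hc : 0 < c) (hC1 : 0 < C1) (hCU : 0 ≤ CU) (hCQ : 0 ≤ CQ) :
    ∃ K : ℝ, 0 < K ∧ ∀ T : ℝ, 0 ≤ T → ∀ δ : ℝ, 0 < δ → ∃ ε₀ : ℝ, 0 < ε₀ ∧ ∃ S₀ : ℝ, 0 < S₀ ∧
      ∀ S ≥ S₀, ∀ ε ≤ ε₀, ∀ D L U Q Loss Pos Gr Cnt : ℝ → ℝ,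
        Flow C1 CU CQ T ε S D L U Q Loss Pos Gr Cnt → c * S ≤ L S - L 0 →
        ∃ τ ∈ Ioo 0 S, c / 4 ≤ Gr τ ∧ Loss τ ≤ δ ∧ Pos τ ≤ K ∧ Cnt τ ≤ K := by
  -- weights of the entropy and of the second moments
  set B : ℝ := c / (8 * (CU + 1) * C1) with hB
  have hB0 : 0 < B := by positivity
  set F : ℝ := c / (64 * (CQ + 1)) with hF
  have hF0 : 0 < F := by positivity
  have hFQ : F * CQ ≤ c / 64 := by
    have h1 : F * (CQ + 1) = c / 64 := by
      rw [hF]
      field_simp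
    nlinarith
  refine ⟨2 * C1 / B + C1 / F, by positivity, fun T hT δ hδ => ?_⟩
  set A : ℝ := C1 / δ + 4 * B ^ 2 * T ^ 2 * C1 / c with hA
  have hA0 : 0 < A := by positivity
  set ε₀ : ℝ := c / (16 * (1 + A + B)) with hε₀
  have hε0 : 0 < ε₀ := by positivity
  set M : ℝ := A * C1 + 2 * B * ((T + CU) * C1) with hM
  have hM0 : 0 < M := by positivity
  refine ⟨ε₀, hε0, 16 * M / c, by positivity, fun S hS ε hε D L U Q Loss Pos Gr Cnt h hgr => ?_⟩
  have hS0 : 0 < S := lt_of_lt_of_le (by positivity) hS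
  by_contra hcon
  push Not at hcon
  -- the combination
  set Φ : ℝ → ℝ := fun τ => L τ + A * D τ - B * U τ + F * Q τ with hΦ
  have hΦc : ContinuousOn Φ (Icc 0 S) :=
    ((h.cL.add (h.cD.const_mul A)).sub (h.cU.const_mul B)).add (h.cQ.const_mul F)
  have hder : ∀ τ ∈ Ioo 0 S, ∃ d, HasDerivAt Φ d τ ∧ d ≤ 53 / 64 * c := by
    intro τ hτ
    obtain ⟨d1, hd1, hd1'⟩ := h.dD τ hτ
    obtain ⟨d2, hd2, hd2'⟩ := h.dL τ hτ
    obtain ⟨d3, hd3, hd3'⟩ := h.dU τ hτ
    obtain ⟨d4, hd4, hd4'⟩ := h.dQ τ hτ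
    refine ⟨d2 + A * d1 - B * d3 + F * d4,
      ((hd2.add (hd1.const_mul A)).sub (hd3.const_mul B)).add (hd4.const_mul F), ?_⟩
    have hN0 := h.Cnt0 τ hτ
    have hτ' : τ ∈ Icc 0 S := ⟨hτ.1.le, hτ.2.le⟩
    have hD0 := h.D0 τ hτ'
    have hD1 := h.D1 τ hτ'
    have hL0 := h.Loss0 τ hτ
    have hP0 := h.Pos0 τ hτ
    have hG1 := h.Gr1 τ hτ
    -- errors
    have e1 : (1 + A + B) * ε ≤ c / 16 := by
      have h1 : (1 + A + B) * ε ≤ (1 + A + B) * ε₀ :=
        mul_le_mul_of_nonneg_left hε (by positivity)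
      have h2 : (1 + A + B) * ε₀ = c / 16 := by
        rw [hε₀]
        field_simp
      linarith
    -- entropy error
    have e2 : B * (CU * D τ) ≤ c / 8 := by
      have h1 : CU * D τ ≤ (CU + 1) * C1 := by nlinarith
      have h2 : B * ((CU + 1) * C1) = c / 8 := by
        rw [hB]
        field_simp
      calc B * (CU * D τ) ≤ B * ((CU + 1) * C1) := mul_le_mul_of_nonneg_left h1 hB0.le
        _ = _ := h2
    -- the square root
    have e3 : B * (T * Real.sqrt (D τ * Loss τ)) ≤ c / 16 + 4 * B ^ 2 * T ^ 2 * C1 / c * Loss τ := by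
      set q := Real.sqrt (D τ * Loss τ) with hq
      have h1 : q ^ 2 = D τ * Loss τ := Real.sq_sqrt (mul_nonneg hD0 hL0)
      have h2 : q ^ 2 ≤ C1 * Loss τ := by
        rw [h1]
        exact mul_le_mul_of_nonneg_right hD1 hL0
      have h3 : B * (T * q) ≤ c / 16 + 4 * B ^ 2 * T ^ 2 * q ^ 2 / c := by
        rw [← sub_nonneg]
        have h4 : c / 16 + 4 * B ^ 2 * T ^ 2 * q ^ 2 / c - B * (T * q) =
            (c / 4 - 2 * (B * T * q)) ^ 2 / c := by
          field_simp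
          ring
        rw [h4]
        positivity
      have h5 : 4 * B ^ 2 * T ^ 2 * q ^ 2 / c ≤ 4 * B ^ 2 * T ^ 2 * C1 / c * Loss τ := by
        rw [div_mul_eq_mul_div]
        have : 4 * B ^ 2 * T ^ 2 * q ^ 2 ≤ 4 * B ^ 2 * T ^ 2 * (C1 * Loss τ) :=
          mul_le_mul_of_nonneg_left h2 (by positivity)
        gcongr ?_ / c
        linarith
      linarith
    -- main alternative
    have key : Gr τ - C1 / δ * Loss τ - B / 2 * Pos τ - F * Cnt τ ≤ c / 2 := by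
      have h7 : 0 ≤ F * Cnt τ := by positivity
      have k1 : 0 < 2 * C1 / B := by positivity
      have k2 : 0 < C1 / F := by positivity
      by_cases h1 : c / 4 ≤ Gr τ
      · by_cases h2 : Loss τ ≤ δ
        · have h6 : 0 ≤ C1 / δ * Loss τ := by positivity
          have h8 : 0 ≤ B / 2 * Pos τ := by positivity
          by_cases h9 : Pos τ ≤ 2 * C1 / B + C1 / F
          · have h3 := hcon τ hτ h1 h2 h9
            have h4 : C1 ≤ F * Cnt τ := by
              have h5 : F * (C1 / F) = C1 := by field_simp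
              calc C1 = F * (C1 / F) := h5.symm
                _ ≤ _ := mul_le_mul_of_nonneg_left (by linarith) hF0.le
            linarith
          · push Not at h9
            have h4 : C1 ≤ B / 2 * Pos τ := by
              have h5 : B / 2 * (2 * C1 / B) = C1 := by field_simp
              calc C1 = B / 2 * (2 * C1 / B) := h5.symm
                _ ≤ _ := mul_le_mul_of_nonneg_left (by linarith) (by positivity)
            linarith
        · push Not at h2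
          have h4 : C1 ≤ C1 / δ * Loss τ := by
            rw [div_mul_eq_mul_div, le_div_iff₀ hδ]
            exact mul_le_mul_of_nonneg_left h2.le hC1.le
          have h6 : 0 ≤ B / 2 * Pos τ := by positivity
          linarith
      · push Not at h1
        have h4 : 0 ≤ C1 / δ * Loss τ := by positivity
        have h6 : 0 ≤ B / 2 * Pos τ := by positivity
        linarith
    have f1 : A * d1 ≤ A * (-Loss τ + ε) := mul_le_mul_of_nonneg_left hd1' hA0.le
    have f2 : B * (Pos τ / 2 - CU * D τ - T * Real.sqrt (D τ * Loss τ) - ε) ≤ B * d3 :=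
      mul_le_mul_of_nonneg_left hd3' hB0.le
    have f3 : A * Loss τ = C1 / δ * Loss τ + 4 * B ^ 2 * T ^ 2 * C1 / c * Loss τ := by
      rw [hA, add_mul]
    have f4 : F * d4 ≤ F * (-Cnt τ + CQ) := mul_le_mul_of_nonneg_left hd4' hF0.le
    linarith
  have hmv : Φ S - Φ 0 ≤ 53 / 64 * c * (S - 0) := by
    refine (convex_Icc (0 : ℝ) S).image_sub_le_mul_sub_of_deriv_le hΦc ?_ ?_ 0
      (left_mem_Icc.2 hS0.le) S (right_mem_Icc.2 hS0.le) hS0.le
    · rw [interior_Icc]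
      intro τ hτ
      obtain ⟨d, hd, -⟩ := hder τ hτ
      exact hd.differentiableAt.differentiableWithinAt
    · rw [interior_Icc]
      intro τ hτ
      obtain ⟨d, hd, hd'⟩ := hder τ hτ
      rw [hd.deriv]
      exact hd'
  have h0 : (0 : ℝ) ∈ Icc 0 S := left_mem_Icc.2 hS0.le
  have hS' : S ∈ Icc 0 S := right_mem_Icc.2 hS0.le
  have g1 := h.D0 S hS'
  have g2 := h.D1 0 h0
  have g3 := h.U0
  have g4 := h.U1
  have g5 : A * D 0 ≤ A * C1 := mul_le_mul_of_nonneg_left g2 hA0.le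
  have g6 : 0 ≤ A * D S := mul_nonneg hA0.le g1
  have g7 : B * U S ≤ B * ((T + CU) * C1) := mul_le_mul_of_nonneg_left g4 hB0.le
  have g8 : -(B * ((T + CU) * C1)) ≤ B * U 0 := by
    have := mul_le_mul_of_nonneg_left g3 hB0.le
    linarith
  have g12 : F * (Q 0 - Q S) ≤ c / 64 * S := by
    calc F * (Q 0 - Q S) ≤ F * (CQ * S) := mul_le_mul_of_nonneg_left h.Q01 hF0.le
      _ = F * CQ * S := by ring
      _ ≤ c / 64 * S := mul_le_mul_of_nonneg_right hFQ hS0.le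
  have g9 : L S - L 0 - M - c / 64 * S ≤ Φ S - Φ 0 := by
    simp only [hΦ, hM]
    linarith
  have g10 : 16 * M ≤ c * S := by
    have := (div_le_iff₀ hc).1 hS
    linarith
  rw [sub_zero] at hmv
  have g11 : 0 < c * S := mul_pos hc hS0
  linarith

/-- **good window**: among `n` windows one has growth `≥ c / 2` and a drop of `Q` at most `K` -/
theorem good_window {c C1 CQ : ℝ} (hc : 0 < c) (hC1 : 0 < C1) (hCQ : 0 ≤ CQ) :
    ∃ K : ℝ, 0 < K ∧ ∀ n : ℕ, 0 < n → ∀ L Q : ℕ → ℝ, c * n ≤ L n - L 0 →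
      (∀ j < n, L (j + 1) - L j ≤ C1) → Q 0 - Q n ≤ CQ * n →
      (∀ j < n, Q (j + 1) - Q j ≤ CQ) →
      ∃ j < n, c / 2 ≤ L (j + 1) - L j ∧ Q j - Q (j + 1) ≤ K := by
  set β : ℝ := c / (8 * (CQ + 1)) with hβ
  have hβ0 : 0 < β := by positivity
  have hβ1 : β * CQ ≤ c / 8 := by
    have h1 : β * (CQ + 1) = c / 8 := by
      rw [hβ]
      field_simp
    nlinarith
  refine ⟨C1 / β, by positivity, fun n hn L Q h1 h2 h3 h4 => ?_⟩
  by_contra hcon
  push Not at hcon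
  have hstep : ∀ j < n, L (j + 1) - L j - β * (Q j - Q (j + 1) + CQ) ≤ c / 2 := by
    intro j hj
    have h5 := h4 j hj
    have h6 := h2 j hj
    have h7 : 0 ≤ β * (Q j - Q (j + 1) + CQ) := mul_nonneg hβ0.le (by linarith)
    by_cases h8 : c / 2 ≤ L (j + 1) - L j
    · have h9 := hcon j hj h8
      have h10 : C1 ≤ β * (Q j - Q (j + 1) + CQ) := by
        have h11 : β * (C1 / β) = C1 := by field_simp
        calc C1 = β * (C1 / β) := h11.symm
          _ ≤ _ := mul_le_mul_of_nonneg_left (by linarith) hβ0.le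
      linarith
    · push Not at h8
      linarith
  have hsum := Finset.sum_le_sum fun j (hj : j ∈ Finset.range n) =>
    hstep j (Finset.mem_range.1 hj)
  have e1 : ∑ j ∈ Finset.range n, (L (j + 1) - L j - β * (Q j - Q (j + 1) + CQ)) =
      (L n - L 0) - β * ((Q 0 - Q n) + n * CQ) := by
    rw [Finset.sum_sub_distrib, Finset.sum_range_sub, ← Finset.mul_sum,
      Finset.sum_add_distrib, Finset.sum_range_sub', Finset.sum_const, Finset.card_range,
      nsmul_eq_mul]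
  rw [e1, Finset.sum_const, Finset.card_range, nsmul_eq_mul] at hsum
  have hn' : (0 : ℝ) < n := by exact_mod_cast hn
  have h12 : β * ((Q 0 - Q n) + n * CQ) ≤ c / 4 * n := by
    calc β * ((Q 0 - Q n) + n * CQ) ≤ β * (CQ * n + n * CQ) :=
          mul_le_mul_of_nonneg_left (by linarith) hβ0.le
      _ = 2 * n * (β * CQ) := by ring
      _ ≤ 2 * n * (c / 8) := mul_le_mul_of_nonneg_left hβ1 (by positivity)
      _ = c / 4 * n := by ring
  have h13 : 0 < c * n := mul_pos hc hn'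
  linarith

end P365T2.H213
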