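import Vale.Agent.P365.InfB.Box

set_option linter.all false

/-!
# P365 T2: the infinite volume theorem from almost every energy (helper213, after InfB/Main)
-/

namespace P365T2.H213

open MeasureTheory ProbabilityTheory Complex Filter Topology
open P365L P365L.Inf P365L.InfB
open scoped ENNReal InnerProductSpace

variable {Ω : Type*} [MeasurableSpace Ω] {P : Measure Ω} [IsProbabilityMeasure P]
variable {γ : ℝ} {V : Site → Ω → ℝ}

/-- the almost sure smallness on a window, along the sequence `1/(k+1)` -/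
theorem ae_window' (hγ : 0 < γ) (hs : BSetup P V γ) (x : Site)
    (hFM : ∀ᵐ E : ℝ, FM P (fun ω => shift x (pot V ω)) E) (N : ℕ)
    (η : ℕ → ℝ) (hη : ∀ k, 0 < η k) (hη0 : Tendsto η atTop (𝓝 0)) :
    ∀ᵐ ω ∂P, ∀ ε : ℝ, 0 < ε → ∃ R : ℕ, ∃ᶠ k in atTop,
      ∫⁻ E in {E : ℝ | |E| ≤ (N : ℝ)},
        ENNReal.ofReal (η k * tail (ball x R) (Res (pot V ω) (E + η k * I) (dl x))) ≤
          ENNReal.ofReal ε := by
  set W : Measure ℝ := volume.restrict {E : ℝ | |E| ≤ (N : ℝ)} with hW
  have hWfin : IsFiniteMeasure W := by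
    refine ⟨?_⟩
    rw [hW, Measure.restrict_apply_univ]
    have : {E : ℝ | |E| ≤ (N : ℝ)} = Set.Icc (-(N : ℝ)) N := by
      ext E
      exact abs_le (G := ℝ)
    rw [this]
    simp
  set X : ℕ → ℕ → Ω × ℝ → ℝ≥0∞ := fun R k p =>
    ENNReal.ofReal (η k * tail (ball x R) (Res (pot V p.1) (p.2 + η k * I) (dl x))) with hX
  have hXm : ∀ R k, Measurable (X R k) := by
    intro R k
    have h1 := measurable_tail (fun p : Ω × ℝ => pot V p.1) (fun p => (p.2 : ℂ) + η k * I)
      (fun y => (measurable_pot hs y).comp measurable_fst)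
      ((Complex.measurable_ofReal.comp measurable_snd).add_const _)
      (fun p => hz_im p.2 (hη k)) x R
    have h2 : ∀ p : Ω × ℝ, ((p.2 : ℂ) + η k * I).im = η k := fun p => by simp
    simp only [h2] at h1
    exact h1.ennreal_ofReal
  set J : ℕ → ℕ → ℝ → ℝ≥0∞ := fun R k E => ∫⁻ ω, X R k (ω, E) ∂P with hJ
  have hJm : ∀ R k, Measurable (J R k) := fun R k => (hXm R k).lintegral_prod_left'
  have hJle : ∀ R k E, J R k E ≤ ENNReal.ofReal (1 / γ) := by
    intro R k E
    have h1 := mean_le hγ hs x (hz_im E (hη k)) R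
    have h2 : ((E : ℂ) + η k * I).im = η k := by simp
    rw [h2] at h1
    exact h1
  set L : ℕ → ℝ → ℝ≥0∞ := fun R E => limsup (fun k => J R k E) atTop with hL
  have hLm : ∀ R, Measurable (L R) := fun R => Measurable.limsup (hJm R)
  have hLle : ∀ R E, L R E ≤ ENNReal.ofReal (1 / γ) := fun R E =>
    limsup_le_of_le (by isBoundedDefault) (Eventually.of_forall fun k => hJle R k E)
  have hL0 : ∀ᵐ E, Tendsto (fun R => L R E) atTop (𝓝 0) := by
    filter_upwards [hFM] with E hFM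
    rw [ENNReal.tendsto_nhds_zero]
    intro ε hε
    by_cases hεt : ε = ∞
    · exact Eventually.of_forall fun R => by rw [hεt]; exact le_top
    have hε' : 0 < ε.toReal := ENNReal.toReal_pos hε.ne' hεt
    obtain ⟨R₀, η₀, hη₀, H⟩ := tail_small hγ hs x E hFM hε'
    filter_upwards [eventually_ge_atTop R₀] with R hR
    refine limsup_le_of_le (by isBoundedDefault) ?_
    filter_upwards [hη0.eventually (gt_mem_nhds hη₀)] with k hk
    have := H R hR (η k) (hη k) hk.le
    rwa [ENNReal.ofReal_toReal hεt] at this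
  have hb : Tendsto (fun R => ∫⁻ E, L R E ∂W) atTop (𝓝 0) := by
    have h0 : ∫⁻ E, (0 : ℝ≥0∞) ∂W = 0 := lintegral_zero
    rw [← h0]
    refine tendsto_lintegral_of_dominated_convergence (fun _ => ENNReal.ofReal (1 / γ)) hLm
      (fun R => ae_of_all _ fun E => hLle R E) ?_ (ae_restrict_of_ae hL0)
    rw [lintegral_const]
    exact ENNReal.mul_ne_top ENNReal.ofReal_ne_top (measure_ne_top _ _)
  set Y : ℕ → Ω → ℝ≥0∞ := fun R ω => liminf (fun k => ∫⁻ E, X R k (ω, E) ∂W) atTop with hY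
  have hIm : ∀ R k, Measurable fun ω => ∫⁻ E, X R k (ω, E) ∂W := fun R k =>
    (hXm R k).lintegral_prod_right'
  have hYm : ∀ R, Measurable (Y R) := fun R => Measurable.liminf (hIm R)
  have hYle : ∀ R, ∫⁻ ω, Y R ω ∂P ≤ ∫⁻ E, L R E ∂W := by
    intro R
    have h1 : ∫⁻ ω, Y R ω ∂P ≤ liminf (fun k => ∫⁻ ω, ∫⁻ E, X R k (ω, E) ∂W ∂P) atTop :=
      lintegral_liminf_le (hIm R)
    have h2 : ∀ k, ∫⁻ ω, ∫⁻ E, X R k (ω, E) ∂W ∂P = ∫⁻ E, J R k E ∂W := by
      intro k
      rw [lintegral_lintegral_swap (hXm R k).aemeasurable]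
    simp only [h2] at h1
    refine h1.trans ?_
    refine (liminf_le_limsup (by isBoundedDefault) (by isBoundedDefault)).trans ?_
    refine limsup_lintegral_le (fun _ => ENNReal.ofReal (1 / γ)) (hJm R)
      (fun k => ae_of_all _ fun E => hJle R k E) ?_
    rw [lintegral_const]
    exact ENNReal.mul_ne_top ENNReal.ofReal_ne_top (measure_ne_top _ _)
  have hZ : ∫⁻ ω, ⨅ R, Y R ω ∂P = 0 := by
    refine le_antisymm ?_ bot_le
    refine ge_of_tendsto' hb fun R => ?_
    exact (lintegral_mono fun ω => iInf_le _ R).trans (hYle R)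
  have hZ0 : ∀ᵐ ω ∂P, ⨅ R, Y R ω = 0 := (lintegral_eq_zero_iff (Measurable.iInf hYm)).1 hZ
  filter_upwards [hZ0] with ω hω ε hε
  have h1 : ⨅ R, Y R ω < ENNReal.ofReal ε := by
    rw [hω]
    simpa using hε
  obtain ⟨R, hR⟩ := iInf_lt_iff.1 h1
  refine ⟨R, ?_⟩
  have h2 : ∃ᶠ k in atTop, ∫⁻ E, X R k (ω, E) ∂W < ENNReal.ofReal ε :=
    frequently_lt_of_liminf_lt (by isBoundedDefault) hR
  exact h2.mono fun k hk => hk.le

/-- **Main theorem of the block INF, almost every energy.** If the fractional moments of the finite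
volume Green functions decay exponentially at almost every energy (around every site), then almost surely the
eigenvectors of `Δ + V` span a dense subspace of `ℓ²(ℤ²)`: pure point spectrum. -/
theorem pure_point_ae (hγ : 0 < γ) (hs : BSetup P V γ)
    (hFM : ∀ x : Site, ∀ᵐ E : ℝ, FM P (fun ω => shift x (pot V ω)) E) :
    ∀ᵐ ω ∂P, EE (pot V ω) = ⊤ := by
  set η : ℕ → ℝ := fun k => 1 / ((k : ℝ) + 1) with hηdef
  have hη : ∀ k, 0 < η k := fun k => by simp only [hηdef]; positivity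
  have hη1 : ∀ k, η k ≤ 1 := by
    intro k
    simp only [hηdef]
    rw [div_le_one (by positivity)]
    have : (0 : ℝ) ≤ k := Nat.cast_nonneg k
    linarith
  have hη0 : Tendsto η atTop (𝓝 0) := tendsto_one_div_add_atTop_nhds_zero_nat
  have h1 : ∀ᵐ ω ∂P, ∀ x : Site, ∀ N : ℕ, ∀ ε : ℝ, 0 < ε → ∃ R : ℕ, ∃ᶠ k in atTop,
      ∫⁻ E in {E : ℝ | |E| ≤ (N : ℝ)},
        ENNReal.ofReal (η k * tail (ball x R) (Res (pot V ω) (E + η k * I) (dl x))) ≤
          ENNReal.ofReal ε := by
    rw [ae_all_iff]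
    intro x
    rw [ae_all_iff]
    intro N
    exact ae_window' hγ hs x (hFM x) N η hη hη0
  filter_upwards [h1] with ω hω
  exact EE_eq_top' _ η hη hη1 hη0 hω


/-- **Final form, almost every energy** -/
theorem pure_point_iid_ae {ν : Measure ℝ} [IsProbabilityMeasure ν] {K : ℝ} (hK0 : 0 < K)
    (hK : ν ≤ ENNReal.ofReal K • (volume : Measure ℝ)) (hV : ∀ x, Measurable (V x))
    (hi : iIndepFun V P) (hl : ∀ x, P.map (V x) = ν) (h : ∀ᵐ E : ℝ, FMboxR ν E) :
    ∀ᵐ ω ∂P, EE (fun y => V y ω) = ⊤ := by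
  have hγ : 0 < 1 / (Real.pi * K) := by
    have := Real.pi_pos
    positivity
  have hs : BSetup P V (1 / (Real.pi * K)) := by
    refine ⟨hV, hi, fun x => ?_⟩
    rw [hl x]
    have h1 : 1 / (Real.pi * (1 / (Real.pi * K))) = K := by
      have := Real.pi_pos.ne'
      field_simp
    rw [h1]
    exact hK
  exact pure_point_ae hγ hs fun x => h.mono fun E hE => FM_of_box hV hi hl hE x

end P365T2.H213
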