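import Vale.Agent.P365.T2.H685.KTopSpec
import Vale.Agent.P365.CUL841.Final740
import Vale.Agent.P365.CUL841.MuEq755

/-!
# P365-T2: the master composition (helper213)

`XThm` (X side) + `KBind` (K side) + `TorSmall` (late chain, leads, floor) ⟹ pure point spectrum
for the exact uniform law at every disorder.
-/

set_option linter.all false

namespace P365T2.H213

open MeasureTheory ProbabilityTheory Complex Filter Topology
open P365L P365L.Inf P365L.InfB P365CU P365CUL P365CUL.Inst755 P365T1.Conc P365T2.H685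
open scoped ENNReal

/-- **B side, end of the chain**: small energy of the homogeneous worlds gives a small crossing
quantity on the torus at all scales `2 ^ k` (literal form of 512 / 394) -/
def TorSmall : Prop :=
  ∀ (lam E : ℝ) (yf : ℕ → ℤ × ℤ) (Vsf : ℕ → ℤ × ℤ → ℝ), 0 < lam → |E| < 4 + lam →
    KTop lam E yf Vsf → DSmall lam E yf Vsf →
    ∀ c p : ℝ, 0 < c → 0 < p → p < 1 / 4 → ∀ θ : ℝ, 0 < θ → ∃ K : ℕ, ∀ k, K ≤ k →
      SmTor (mu2 lam tau0) c p θ E (2 ^ k)

/-- finite volume criterion inside the spectrum -/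
theorem fmboxR_in (hT : TorSmall) {lam E : ℝ} {yf : ℕ → ℤ × ℤ} {Vsf : ℕ → ℤ × ℤ → ℝ}
    (hlam : 0 < lam) (hE : |E| < 4 + lam) (hK : KTop lam E yf Vsf) (hD : DSmall lam E yf Vsf) :
    FMboxR (scl lam uni) E := by
  have := isProb_mu2 (lam := lam) (τ := tau0) hlam tau0_pos tau0_le
  have hL := lawP_mu2' (lam := lam) (τ := tau0) hlam tau0_pos tau0_le (w0 := 1) one_pos
  obtain ⟨θ, hθ, M1, hM⟩ := comp_mainL hlam hL (c := 1) (p := 1 / 8) one_pos (by norm_num)
    (by norm_num)
  obtain ⟨K, hK'⟩ := hT lam E yf Vsf hlam hE hK hD 1 (1 / 8) one_pos (by norm_num)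
    (by norm_num) θ hθ
  obtain ⟨n, hn⟩ := hM (2 ^ max K M1) ((Nat.lt_two_pow_self).le.trans' (le_max_right K M1))
  refine hn E fun j _ => ?_
  have h1 : 4 ^ j * 2 ^ max K M1 = 2 ^ (2 * j + max K M1) := by
    rw [pow_add, pow_mul]
    norm_num
  rw [h1]
  exact hK' _ ((le_max_left K M1).trans (Nat.le_add_left _ _))

/-- **the master composition**: pure point spectrum for the exact uniform law, every disorder -/
theorem q2_final {Q0 : ∀ (N : ℕ) [NeZero N], StW N → ℝ → (ℝ → ℝ) → ℝ → Prop} (hX : XThm Q0)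
    (hK : KBind Q0) (hT : TorSmall) {lam : ℝ} (hlam : 0 < lam) : Q2 lam := by
  refine q2_of_fm hlam ?_
  have h2 : ∀ᵐ E : ℝ, E ≠ 4 + lam ∧ E ≠ -(4 + lam) := by
    have h3 : ∀ a : ℝ, ∀ᵐ E : ℝ, E ≠ a := fun a => by
      rw [ae_iff]
      simp
    exact (h3 _).and (h3 _)
  filter_upwards [h2] with E hE
  rcases lt_trichotomy |E| (4 + lam) with h | h | h
  · obtain ⟨yf, Vsf, hKT⟩ := exists_kTop hlam h
    exact fmboxR_in hT hlam h hKT (dsmall_of hX hK hlam h hKT)
  · rcases abs_choice E with h3 | h3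
    · exact absurd (h3 ▸ h) hE.1
    · exact absurd (by linarith) hE.2
  · exact fmboxR_out hlam.le h (uni_bdd hlam)

end P365T2.H213
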