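import Vale.Agent.P365.T2.H213.Text

/-!
# P365-T2: the goal (helper213)

The statement of the hand-in `P365.FullLocalization2D`, as a proposition, and the last step.
-/

set_option linter.all false

namespace P365T2.H213

open MeasureTheory ProbabilityTheory P365L
open scoped ENNReal

/-- **Q2**: for every `lam > 0`, for independent `w x`, each uniform on `[-1, 1]`, on any
probability space, almost surely `H = hop + lam w` on `ℓ²(ℤ²)` has pure point spectrum -/
def Goal.{u} : Prop :=
  ∀ lam : ℝ, 0 < lam → ∀ {Ω : Type u} [MeasurableSpace Ω] (P : Measure Ω)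
    [IsProbabilityMeasure P] (w : Site → Ω → ℝ), (∀ x, Measurable (w x)) → iIndepFun w P →
    (∀ x, P.map (w x) = cond volume (Set.Icc (-1) 1)) →
    ∀ᵐ o ∂P, PurePoint (fun x => lam * w x o)

/-- **the last step** -/
theorem goal_of.{u} {Q0 : ∀ (N : ℕ) [NeZero N], StW N → ℝ → (ℝ → ℝ) → ℝ → Prop} (hX : XThm Q0)
    (hK : KBind Q0) (hT : TorSmall) : Goal.{u} :=
  fun _ hlam _ _ P _ w hw hi hl => q2_univ (q2_final hX hK hT hlam) P w hw hi hl

end P365T2.H213
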