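import Vale.Agent.P365.CU.Pure
import Vale.Agent.P365.X5.Out

set_option linter.all false

/-!
# P365 T2: energies outside the spectrum, and the almost-every-energy form of the infinite volume
theorem (helper213)
-/

namespace P365T2.H213

open MeasureTheory ProbabilityTheory Complex Matrix Filter Topology
open P365L P365L.Inf P365L.InfB
open scoped ENNReal

/-! ### outside the spectrum -/

theorem col_le {lam E : ℝ} (hE : 4 + lam < |E|) {M : ℕ} {v : Lam M → ℝ}
    (hv : ∀ x, |v x| ≤ lam) {z : ℂ} (hz : 0 < z.im) (hzr : z.re = E) (y : Lam M) :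
    (|E| - lam) * ‖GR (AL M) v z y (oL M)‖ ≤ (if y = oL M then 1 else 0) +
      ∑ w, AL M y w * ‖GR (AL M) v z w (oL M)‖ := by
  have h1 := Kmat_mulVec_Gr (AL_symm M) (W := fun x => (v x : ℂ) - z)
    (fun x => im_v v hz x) (oL M) y
  rw [Kmat_mulVec] at h1
  have h2 : ((v y : ℂ) - z) * GR (AL M) v z y (oL M) =
      (if y = oL M then 1 else 0) - ∑ w, (AL M y w : ℂ) * GR (AL M) v z w (oL M) := by
    rw [eq_sub_iff_add_eq, add_comm]
    exact h1
  have h3 : |E| - lam ≤ ‖(v y : ℂ) - z‖ := by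
    have h4 : |v y - E| ≤ ‖(v y : ℂ) - z‖ := by
      have h5 := Complex.abs_re_le_norm ((v y : ℂ) - z)
      simpa [hzr] using h5
    have h5 := hv y
    have h6 : |E| ≤ |v y - E| + |v y| := by
      have h7 := abs_sub_abs_le_abs_sub E (v y)
      rw [abs_sub_comm] at h7
      linarith
    linarith
  calc (|E| - lam) * ‖GR (AL M) v z y (oL M)‖
      ≤ ‖(v y : ℂ) - z‖ * ‖GR (AL M) v z y (oL M)‖ :=
        mul_le_mul_of_nonneg_right h3 (norm_nonneg _)
    _ = ‖(if y = oL M then 1 else 0) - ∑ w, (AL M y w : ℂ) * GR (AL M) v z w (oL M)‖ := by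
        rw [← norm_mul, h2]
    _ ≤ ‖(if y = oL M then (1 : ℂ) else 0)‖ +
          ‖∑ w, (AL M y w : ℂ) * GR (AL M) v z w (oL M)‖ := norm_sub_le _ _
    _ ≤ _ := by
        refine add_le_add ?_ ((norm_sum_le _ _).trans (le_of_eq ?_))
        · split_ifs <;> simp
        · refine Finset.sum_congr rfl fun w _ => ?_
          rw [norm_mul, Complex.norm_real, Real.norm_of_nonneg]
          rcases X5.AL_01 M y w with h | h <;> rw [h] <;> norm_num

theorem GR_decay {lam E : ℝ} (hlam : 0 ≤ lam) (hE : 4 + lam < |E|) {M : ℕ} {v : Lam M → ℝ}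
    (hv : ∀ x, |v x| ≤ lam) {z : ℂ} (hz : 0 < z.im) (hzr : z.re = E) (n : ℕ) (y : Lam M)
    (hy : n ≤ n1 (y : Site)) :
    ‖GR (AL M) v z y (oL M)‖ ≤ 1 / (|E| - lam - 4) * (4 / (|E| - lam)) ^ n := by
  have ha : 0 < |E| - lam := by linarith
  have ha4 : 0 < |E| - lam - 4 := by linarith
  have hA0 : ∀ x w, 0 ≤ AL M x w := fun x w => by
    rcases X5.AL_01 M x w with h | h <;> rw [h] <;> norm_num
  induction n generalizing y with
  | zero =>
    rw [pow_zero, mul_one]
    obtain ⟨x, -, hx⟩ := Finset.exists_max_image Finset.univ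
      (fun x : Lam M => ‖GR (AL M) v z x (oL M)‖) ⟨oL M, Finset.mem_univ _⟩
    refine (hx y (Finset.mem_univ _)).trans ?_
    have h1 := col_le hE hv hz hzr x
    have h2 : ∑ w, AL M x w * ‖GR (AL M) v z w (oL M)‖ ≤ 4 * ‖GR (AL M) v z x (oL M)‖ := by
      calc ∑ w, AL M x w * ‖GR (AL M) v z w (oL M)‖
          ≤ ∑ w, AL M x w * ‖GR (AL M) v z x (oL M)‖ :=
            Finset.sum_le_sum fun w _ => mul_le_mul_of_nonneg_left (hx w (Finset.mem_univ _))
              (hA0 x w)
        _ = (∑ w, AL M x w) * ‖GR (AL M) v z x (oL M)‖ := by rw [Finset.sum_mul]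
        _ ≤ _ := mul_le_mul_of_nonneg_right (X5.AL_row M x) (norm_nonneg _)
    have h3 : (if x = oL M then (1 : ℝ) else 0) ≤ 1 := by split_ifs <;> norm_num
    rw [le_div_iff₀ ha4]
    nlinarith
  | succ n ih =>
    have h1 := col_le hE hv hz hzr y
    have h2 : y ≠ oL M := by
      rintro rfl
      simp [n1, oL] at hy
    rw [if_neg h2, zero_add] at h1
    have h3 : ∑ w, AL M y w * ‖GR (AL M) v z w (oL M)‖ ≤
        4 * (1 / (|E| - lam - 4) * (4 / (|E| - lam)) ^ n) := by
      calc ∑ w, AL M y w * ‖GR (AL M) v z w (oL M)‖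
          ≤ ∑ w, AL M y w * (1 / (|E| - lam - 4) * (4 / (|E| - lam)) ^ n) := by
            refine Finset.sum_le_sum fun w _ => ?_
            by_cases hw : AL M y w = 0
            · rw [hw, zero_mul, zero_mul]
            · refine mul_le_mul_of_nonneg_left (ih w ?_) (hA0 y w)
              have := X5.AL_lip M y w hw
              omega
        _ = (∑ w, AL M y w) * _ := by rw [Finset.sum_mul]
        _ ≤ _ := mul_le_mul_of_nonneg_right (X5.AL_row M y) (by positivity)
    calc ‖GR (AL M) v z y (oL M)‖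
        ≤ 4 * (1 / (|E| - lam - 4) * (4 / (|E| - lam)) ^ n) / (|E| - lam) := by
          rw [le_div_iff₀ ha, mul_comm]
          exact h1.trans h3
      _ = _ := by
          rw [pow_succ]
          ring

/-- **energies outside the spectrum** -/
theorem fmboxR_out {lam E : ℝ} (hlam : 0 ≤ lam) (hE : 4 + lam < |E|) {ν : Measure ℝ}
    [IsProbabilityMeasure ν] (hν : ∀ᵐ t ∂ν, |t| ≤ lam) : FMboxR ν E := by
  have ha : 0 < |E| - lam := by linarith
  have ha4 : 0 < |E| - lam - 4 := by linarith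
  have hq0 : 0 < 4 / (|E| - lam) := by positivity
  have hq1 : 4 / (|E| - lam) < 1 := by
    rw [div_lt_one ha]
    linarith
  refine ⟨1, 1 / (|E| - lam - 4), -Real.log (4 / (|E| - lam)), 1, one_pos, le_rfl,
    neg_pos.2 (Real.log_neg hq0 hq1), one_pos, fun η hη _ y => Eventually.of_forall fun M hy => ?_⟩
  have h1 : ∀ᵐ v ∂(Measure.pi fun _ : Lam M => ν), ∀ x, |v x| ≤ lam := by
    rw [ae_all_iff]
    exact fun x => (Measure.quasiMeasurePreserving_eval (fun _ : Lam M => ν) x).ae hν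
  calc ∫⁻ v, ENNReal.ofReal (‖GR (AL M) v (E + η * I) ⟨y, hy⟩ (oL M)‖ ^ (1 : ℝ))
        ∂(Measure.pi fun _ : Lam M => ν)
      ≤ ∫⁻ v, ENNReal.ofReal (1 / (|E| - lam - 4) *
          Real.exp (- -Real.log (4 / (|E| - lam)) * n1 y)) ∂(Measure.pi fun _ : Lam M => ν) := by
        refine lintegral_mono_ae ?_
        filter_upwards [h1] with v hv
        refine ENNReal.ofReal_le_ofReal ?_
        rw [Real.rpow_one]
        have h2 := GR_decay hlam hE hv (z := E + η * I) (by simpa using hη) (by simp) (n1 y)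
          ⟨y, hy⟩ le_rfl
        refine h2.trans (le_of_eq ?_)
        congr 1
        rw [neg_neg, mul_comm, Real.exp_nat_mul, Real.exp_log hq0]
    _ = _ := by
        rw [lintegral_const, measure_univ, mul_one]

theorem uni_bdd {lam : ℝ} (hlam : 0 < lam) : ∀ᵐ t ∂(P365CU.scl lam P365CU.uni), |t| ≤ lam := by
  unfold P365CU.scl
  rw [ae_map_iff (by fun_prop) (measurableSet_le (by fun_prop) (by fun_prop))]
  unfold P365CU.uni
  refine Measure.ae_smul_measure ?_ _
  rw [ae_restrict_iff' (by measurability)]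
  refine ae_of_all _ fun t ht => ?_
  rw [abs_mul, abs_of_pos hlam]
  have h1 : |t| ≤ 1 := abs_le.2 ⟨by linarith [ht.1], by linarith [ht.2]⟩
  nlinarith

end P365T2.H213
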