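import Vale.Agent.P365.T2.H213.Ae
import Vale.Agent.P365.T2.H213.Out

set_option linter.all false

/-!
# P365 T2: pure point spectrum for the exact uniform law from the crossing quantity (helper213)
-/

namespace P365T2.H213

open MeasureTheory ProbabilityTheory Complex Filter Topology
open P365L P365L.Inf P365L.InfB P365CU
open scoped ENNReal

/-- the crossing quantity is small at every large scale, at every energy inside the spectrum -/
def SmallAll (lam c p : ℝ) : Prop :=
  ∀ E : ℝ, |E| < 4 + lam → ∀ θ : ℝ, 0 < θ → ∃ M : ℕ, ∀ m ≥ M, SmallT lam c p θ E m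

/-- almost every energy is enough, energies outside the spectrum are free -/
theorem fmboxR_ae {lam c p : ℝ} (hlam : 0 < lam) (hc : 0 < c) (hp : 0 < p) (hp4 : p < 1 / 4)
    (H : SmallAll lam c p) : ∀ᵐ E : ℝ, FMboxR (scl lam uni) E := by
  have : IsProbabilityMeasure (scl lam uni) := by
    unfold scl
    exact Measure.isProbabilityMeasure_map (by fun_prop)
  obtain ⟨θ₀, h0, M₁, h1⟩ := comp_main hlam hc hp hp4
  have h2 : ∀ᵐ E : ℝ, E ≠ 4 + lam ∧ E ≠ -(4 + lam) := by
    have h3 : ∀ a : ℝ, ∀ᵐ E : ℝ, E ≠ a := fun a => by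
      rw [ae_iff]
      simp
    exact (h3 _).and (h3 _)
  filter_upwards [h2] with E hE
  rcases lt_trichotomy |E| (4 + lam) with h | h | h
  · obtain ⟨M, hM⟩ := H E h θ₀ h0
    obtain ⟨n, hn⟩ := h1 (max (max M₁ M) 1) ((le_max_left _ _).trans (le_max_left _ _))
    refine hn E fun j _ => hM _ ?_
    calc M ≤ max (max M₁ M) 1 := (le_max_right _ _).trans (le_max_left _ _)
      _ = 1 * max (max M₁ M) 1 := (one_mul _).symm
      _ ≤ 4 ^ j * max (max M₁ M) 1 := Nat.mul_le_mul_right _ (Nat.one_le_pow _ _ (by norm_num))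
  · rcases abs_choice E with h3 | h3
    · exact absurd (h3 ▸ h) hE.1
    · exact absurd (by linarith) hE.2
  · exact fmboxR_out hlam.le h (uni_bdd hlam)

/-- `H = hop + V` has pure point spectrum: its eigenvectors span a dense subspace of `ℓ²(ℤ²)` -/
def PurePoint (V : Site → ℝ) : Prop :=
  (Submodule.span ℂ {u : L2 | ∃ E : ℝ, ∀ x : Site,
    hop (fun y => u y) x + ((V x : ℝ) : ℂ) * u x = (E : ℂ) * u x}).topologicalClosure = ⊤

/-- **Question Q2** at disorder `lam` -/
def Q2 (lam : ℝ) : Prop :=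
  ∀ (Ω : Type) [MeasurableSpace Ω] (P : Measure Ω) [IsProbabilityMeasure P]
    (w : Site → Ω → ℝ), (∀ x, Measurable (w x)) → iIndepFun w P →
    (∀ x, P.map (w x) = cond volume (Set.Icc (-1) 1)) →
    ∀ᵐ o ∂P, PurePoint (fun x => lam * w x o)

theorem uni_eq : (cond volume (Set.Icc (-1 : ℝ) 1)) = uni := by
  unfold ProbabilityTheory.cond uni
  rw [Real.volume_Icc, ← ENNReal.ofReal_inv_of_pos (by norm_num)]
  norm_num

/-- **pure point spectrum for the exact uniform law from the crossing quantity** -/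
theorem q2_of_fm {lam : ℝ} (hlam : 0 < lam) (H : ∀ᵐ E : ℝ, FMboxR (scl lam uni) E) : Q2 lam := by
  intro Ω _ P _ w hw hwi hwl
  have : IsProbabilityMeasure (scl lam uni) := by
    unfold scl
    exact Measure.isProbabilityMeasure_map (by fun_prop)
  have hm : Measurable fun t : ℝ => lam * t := measurable_id.const_mul lam
  have h1 : 0 < 1 / 2 * |lam⁻¹| := by
    have := hlam.ne'
    positivity
  have hi : iIndepFun (fun x o => lam * w x o) P := hwi.comp (fun _ t => lam * t) fun _ => hm
  have hl : ∀ x, P.map (fun o => lam * w x o) = scl lam uni := by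
    intro x
    unfold scl
    rw [← uni_eq, ← hwl x, Measure.map_map hm (hw x)]
    rfl
  exact pure_point_iid_ae h1 (scl_le hlam) (fun x => (hw x).const_mul lam) hi hl H

theorem q2_of_small {lam c p : ℝ} (hlam : 0 < lam) (hc : 0 < c) (hp : 0 < p) (hp4 : p < 1 / 4)
    (H : SmallAll lam c p) : Q2 lam :=
  q2_of_fm hlam (fmboxR_ae hlam hc hp hp4 H)

end P365T2.H213
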