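import Vale.Agent.P365.V4.FlowLoss548b
import Vale.Agent.P365.V4.Free227
import Vale.Agent.P365.T2.H213.GoodTime
import Vale.Agent.P365.T2.H213.Top0

/-!
# P365-T2: Spec of the top (helper213)

`StW` = one stage of the chain on the torus (homogeneous world: `A = AT N`), logarithmic time
`τ ∈ [0, S]`, profile `eT u w τ = u + exp (-τ) w` (548).
`StW.Ok` = everything the X side may use about the stage (delivered by K).
`XThm` = what the X side delivers.  `KTop`, `KBind`, `DSmall` = the K side and its consumer.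
-/

set_option linter.all false

namespace P365T2.H213

open P365L P365O P365T1 P365L.TL P365T1.Conc Matrix Complex MeasureTheory Filter Topology Set
open Vale.Agent.P365.J376 P365T2.SeqG P365T2.ConcG P365V4.Free
open scoped ComplexConjugate ENNReal

/-! ### one stage -/

/-- one stage of the chain on the torus `Tor N` -/
structure StW (N : ℕ) [NeZero N] : Type 1 where
  /-- labels -/
  Λ : Type
  /-- finitely many labels -/
  fin : Fintype Λ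
  /-- masses -/
  p : Λ → ℝ
  /-- laws of the potential -/
  ν : Λ → Measure ℝ
  /-- static profile -/
  u : (Tor N → Λ) → Tor N → ℝ
  /-- moving weight -/
  w : (Tor N → Λ) → Tor N → ℝ
  /-- length of the good part of the stage in logarithmic time -/
  S : ℝ

attribute [instance] StW.fin

section stw

variable {N : ℕ} [NeZero N] (W : StW N) (E : ℝ)

/-- average over labels and potentials at time `τ` -/
noncomputable def StW.Av (τ : ℝ) (G : (Tor N → W.Λ) → (Tor N → ℂ) → ℝ) : ℝ :=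
  AvG W.p W.ν E (eT W.u W.w τ) G

/-- energy of a finite family of test functions at time `τ` (ordered pairs, not normalised) -/
noncomputable def StW.Phi {κ : Type} [Fintype κ] (F : κ → Tor N → ℝ) (τ : ℝ) : ℝ :=
  PhiG (AT N) W.p W.ν E F (eT W.u W.w τ)

/-- loss at time `τ` (548's normalisation `lossS = 2 m mu²`, direction `wT w τ`) -/
noncomputable def StW.LossF {κ : Type} [Fintype κ] (F : κ → Tor N → ℝ) (τ : ℝ) : ℝ :=
  LossG (AT N) W.p W.ν E F (eT W.u W.w τ) (wT W.w τ)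

/-- off-resonant energy of the moving absorption at time `τ` -/
noncomputable def StW.Yg {κ : Type} [Fintype κ] (F : κ → Tor N → ℝ) (τ : ℝ) : ℝ :=
  YG (AT N) W.p W.ν E F (eT W.u W.w τ) (wT W.w τ)

/-- `Av ∑ g_x m_x` -/
noncomputable def StW.EM (g : (Tor N → W.Λ) → Tor N → ℝ) (τ : ℝ) : ℝ :=
  W.Av E τ fun l V => ∑ x, g l x * mm (AT N) V x

/-- fourth moment of the energy, `Av ∑ e_x e_y K_xy dsq(x,y)²` -/
noncomputable def StW.M4 (τ : ℝ) : ℝ :=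
  W.Av E τ fun _ V => ∑ x, ∑ y, (-(V x).im) * (-(V y).im) * KK (AT N) V x y * dsq x y ^ 2

/-- **what the X side may use of a stage**; `C1` large, `η` small.
All fields are stated for the whole good part `τ ∈ [0, S]`. -/
structure StW.Ok (W : StW N) (lam E C1 η : ℝ) : Prop where
  p_nonneg : ∀ k, 0 ≤ W.p k
  p_sum : ∑ k, W.p k = 1
  prob : ∀ k, IsProbabilityMeasure (W.ν k)
  /-- all the laws are carried by `[-lam, lam]` -/
  supp : ∀ k, W.ν k (Set.Icc (-lam) lam)ᶜ = 0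
  /-- densities -/
  dens : ∃ Dk : W.Λ → ℝ, (∀ k, 0 ≤ Dk k) ∧ (∀ k, DensLe (Dk k) (W.ν k)) ∧
    ∑ k, W.p k * Dk k ≤ 2 / lam
  /-- the moving sites carry the smooth law -/
  mov : ∀ l x, W.w l x ≠ 0 → W.ν (l x) = nuS lam (lam * tau0 / 2)
  u_pos : ∃ b : ℝ, 0 < b ∧ ∀ l x, b ≤ W.u l x
  w_nonneg : ∀ l x, 0 ≤ W.w l x
  /-- the moving weights are not too small (`log (1 / e_x) ≤ 2 S` at the moving sites) -/
  w_ge : ∀ l x, W.w l x ≠ 0 → Real.exp (-(η * W.S)) ≤ W.w l x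
  e_le : ∀ l x, W.u l x + W.w l x ≤ 1
  /-- the stage is long -/
  S_ge : 1 / η ≤ W.S
  /-- the torus is much longer than the last length scale `exp (C S)` of the stage -/
  N_ge : Real.exp (W.S / η) ≤ N
  /-- (k2) the hub, every finite Lipschitz family -/
  hub : ∀ τ ∈ Set.Icc 0 W.S, ∀ (κ : Type) [Fintype κ] (F : κ → Tor N → ℝ) (Λf : ℝ),
    0 ≤ Λf → VecLip F Λf →
      W.Yg E F τ ≤ η / W.S ^ 8 * (W.Phi E F τ + Λf ^ 2 * (N : ℝ) ^ 2)
  /-- (k3) the energy is bounded, every finite Lipschitz family -/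
  en_le : ∀ τ ∈ Set.Icc 0 W.S, ∀ (κ : Type) [Fintype κ] (F : κ → Tor N → ℝ) (Λf : ℝ),
    0 ≤ Λf → VecLip F Λf → W.Phi E F τ ≤ C1 * (Λf ^ 2 * (N : ℝ) ^ 2)
  /-- (k4') the static absorption is tiny -/
  share : ∀ τ ∈ Set.Icc 0 W.S, W.EM E W.u τ ≤ Real.exp (-(W.S / η)) * (N : ℝ) ^ 2
  /-- (k5) Wegner -/
  weg : ∀ τ ∈ Set.Icc 0 W.S,
    W.EM E (eT W.u W.w τ) τ ≤ C1 * Real.exp (-τ) * (N : ℝ) ^ 2
  /-- (k6) fourth moment at the beginning of the stage -/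
  m4_start : W.M4 E 0 ≤ Real.exp (η * W.S) * (N : ℝ) ^ 2
  /-- (k6) fourth moment during the stage -/
  m4 : ∀ τ ∈ Set.Icc 0 W.S, W.M4 E τ ≤ Real.exp (C1 * W.S) * (N : ℝ) ^ 2

end stw

/-- **the X side**: in a long good stage the energy is once at most `d` per site.
`Q0 N W E gf η` = the hypothesis (k7) on the local energies at the beginning of the stage:
uniform integrability, for every `ρ ∈ [η, 1]`
`(Q-functional at level gf ρ, divided by gf ρ) (0) ≤ ρ * S * N ^ 2`.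
The modulus `gf` and `C1` may depend on `rs` (they come before `η`, hence before the stage). -/
def XThm (Q0 : ∀ (N : ℕ) [NeZero N], StW N → ℝ → (ℝ → ℝ) → ℝ → Prop) : Prop :=
  ∀ (lam E C1 d : ℝ) (gf : ℝ → ℝ), 0 < lam → |E| < 4 + lam → 0 < C1 → 0 < d →
    (∀ ρ, 1 ≤ gf ρ) →
    ∃ η : ℝ, 0 < η ∧ ∀ (N : ℕ) [NeZero N] (W : StW N), W.Ok lam E C1 η → Q0 N W E gf η →
      ∃ τ ∈ Set.Icc 0 W.S, W.Phi E (phi N) τ ≤ d * (N : ℝ) ^ 2

/-! ### the concrete worlds -/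

/-- the concrete world, base `8`, whole torus, floor `fl`, bounds `b ≤ fl ≤ b'` -/
noncomputable abbrev World (lam : ℝ) (yf : ℕ → ℤ × ℤ) (Vsf : ℕ → ℤ × ℤ → ℝ) (rs I N : ℕ)
    [NeZero N] (b : ℝ) (fl : (PP 8 yf rs I).Lb → Tor N → ℝ) (b' : ℝ) : V4 N :=
  Wf (tF 8 rs I b) b (pS 8 yf rs I) (nuD 8 lam yf Vsf rs I) Finset.univ fl b'

/-- conditions on the size of the torus and on the floor -/
structure FlOk (yf : ℕ → ℤ × ℤ) (rs I N : ℕ) [NeZero N] (b : ℝ)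
    (fl : (PP 8 yf rs I).Lb → Tor N → ℝ) (b' : ℝ) : Prop where
  dvd : ∀ i ≤ I, mS 8 rs i ∣ N
  N_ge : Real.exp (rr 8 rs I : ℝ) ≤ N
  b_pos : 0 < b
  b_ge : Real.exp (-((rr 8 rs I : ℝ) ^ 9)) ≤ b
  b'_le : b' ≤ e0S 8 rs I
  fl_ge : ∀ k x, b ≤ fl k x
  fl_le : ∀ k x, fl k x ≤ b'

/-- **K side**: the hubs of all families, any power rate, one strength `s` -/
def KTop (lam E : ℝ) (yf : ℕ → ℤ × ℤ) (Vsf : ℕ → ℤ × ℤ → ℝ) : Prop :=
  ∀ K : ℕ, ∃ R : ℕ, 2 ≤ R ∧ (∀ r, R ≤ r → yf r ∈ P365SH.Xr r) ∧ ∀ rs, R ≤ rs → ∀ I : ℕ,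
    AdmS 8 lam yf Vsf rs I ∧
    ∀ (N : ℕ) [NeZero N] (b : ℝ) (fl : (PP 8 yf rs I).Lb → Tor N → ℝ) (b' : ℝ),
      FlOk yf rs I N b fl b' →
      (World lam yf Vsf rs I N b fl b').Ok (nuL lam) ∧
      ∀ i ≤ I, ∀ s, tF 8 rs I b (i + 1) ≤ s → s ≤ 1 →
        HC4 (World lam yf Vsf rs I N b fl b').toV3 N Finset.univ E
          ((World lam yf Vsf rs I N b fl b').prof i s s) i (1 / (rr 8 rs i : ℝ) ^ K) ∧
        ∀ (κ : Type) [Fintype κ] (F : κ → Tor N → ℝ) (Λf : ℝ), 0 ≤ Λf → VecLip F Λf →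
          HBe (World lam yf Vsf rs I N b fl b').toV3 N Finset.univ F E
            ((World lam yf Vsf rs I N b fl b').prof i s s) i s (1 / (rr 8 rs i : ℝ) ^ K)
            (Λf ^ 2 * (N : ℝ) ^ 2)

/-- good part of the stage `i + 1` of a world, as an object of the X side -/
noncomputable def stOf {N : ℕ} [NeZero N] (D : V4 N) (i : ℕ) (S : ℝ) : StW N where
  Λ := D.Λ
  fin := D.fin
  p := D.p
  ν := D.ν
  u := D.us (i + 1)
  w := D.Ws (i + 1)
  S := S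

/-- length of the good part of the stage `i + 1`: `log (e0 i / e0 (i + 1))` -/
noncomputable def Sgood (rs i : ℕ) : ℝ := (rr 8 rs (i + 1) : ℝ) - rr 8 rs i

/-- **K-BIND**: the stages of the homogeneous worlds (`floor = b`, whole torus) are `Ok`;
`C1` and `gf` depend on `rs` (the trivial stage `0` costs `exp (C rs ^ 5)`), `η → 0` as `i → ∞`
at fixed `rs` -/
def KBind (Q0 : ∀ (N : ℕ) [NeZero N], StW N → ℝ → (ℝ → ℝ) → ℝ → Prop) : Prop :=
  ∀ (lam E : ℝ) (yf : ℕ → ℤ × ℤ) (Vsf : ℕ → ℤ × ℤ → ℝ), 0 < lam → |E| < 4 + lam →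
    KTop lam E yf Vsf →
    ∃ R : ℕ, 2 ≤ R ∧ ∀ rs, R ≤ rs → ∃ (C1 : ℝ) (gf : ℝ → ℝ), 0 < C1 ∧ (∀ ρ, 1 ≤ gf ρ) ∧
      ∀ η : ℝ, 0 < η → ∃ i₀ : ℕ, ∀ i, i₀ ≤ i → ∀ I, i + 2 ≤ I → ∀ (N : ℕ) [NeZero N] (b : ℝ),
        FlOk yf rs I N b (fun _ _ => b) b →
        (stOf (World lam yf Vsf rs I N b (fun _ _ => b) b) i (Sgood rs i)).Ok lam E C1 η ∧
        Q0 N (stOf (World lam yf Vsf rs I N b (fun _ _ => b) b) i (Sgood rs i)) E gf η

/-- **`DSmall`**: small energy of the homogeneous worlds at some time of a fixed stage -/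
def DSmall (lam E : ℝ) (yf : ℕ → ℤ × ℤ) (Vsf : ℕ → ℤ × ℤ → ℝ) : Prop :=
  ∃ R : ℕ, 2 ≤ R ∧ ∀ rs, R ≤ rs → ∀ d : ℝ, 0 < d → ∃ i₀ : ℕ, ∀ i, i₀ ≤ i → ∀ I, i + 2 ≤ I →
    ∀ (N : ℕ) [NeZero N] (b : ℝ), FlOk yf rs I N b (fun _ _ => b) b →
      ∃ τ ∈ Set.Icc 0 (Sgood rs i),
        PhiG (AT N) (World lam yf Vsf rs I N b (fun _ _ => b) b).p
          (World lam yf Vsf rs I N b (fun _ _ => b) b).ν E (phi N)
          (eT ((World lam yf Vsf rs I N b (fun _ _ => b) b).us (i + 1))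
            ((World lam yf Vsf rs I N b (fun _ _ => b) b).Ws (i + 1)) τ) ≤ d * (N : ℝ) ^ 2

/-- X side and K side give small energy -/
theorem dsmall_of {Q0 : ∀ (N : ℕ) [NeZero N], StW N → ℝ → (ℝ → ℝ) → ℝ → Prop} (hX : XThm Q0)
    (hK : KBind Q0) {lam E : ℝ} {yf : ℕ → ℤ × ℤ} {Vsf : ℕ → ℤ × ℤ → ℝ} (hlam : 0 < lam)
    (hE : |E| < 4 + lam) (h : KTop lam E yf Vsf) : DSmall lam E yf Vsf := by
  obtain ⟨R, hR, hK⟩ := hK lam E yf Vsf hlam hE h
  refine ⟨R, hR, fun rs hrs d hd => ?_⟩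
  obtain ⟨C1, gf, hC1, hgf, hK⟩ := hK rs hrs
  obtain ⟨η, hη, hX⟩ := hX lam E C1 d gf hlam hE hC1 hd hgf
  obtain ⟨i₀, hK⟩ := hK η hη
  refine ⟨i₀, fun i hi I hI N _ b hfl => ?_⟩
  obtain ⟨h1, h2⟩ := hK i hi I hI N b hfl
  exact hX N _ h1 h2

end P365T2.H213
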