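import Vale.Agent.P365.T2.H213.Final
import Vale.Agent.P365.Inf.Box

/-!
# P365-T2: form of the hand-in (helper213)

From `Q2` (probability spaces in `Type`) to every probability space, with the statement about
spectral measures.
-/

set_option linter.all false

namespace P365T2.H213

open MeasureTheory ProbabilityTheory P365L
open scoped ENNReal

/-- every spectral measure of `H = hop + V` is carried by a countable set -/
def AtomicSpectrum (V : Site → ℝ) : Prop :=
  ∀ (ψ : L2) (μ : Measure ℝ), IsSpectralMeasure V ψ μ → ∃ S : Set ℝ, S.Countable ∧ μ Sᶜ = 0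

/-- from the canonical space to every probability space -/
theorem q2_univ {lam : ℝ} (H : Q2 lam) {Ω : Type*} [MeasurableSpace Ω] (P : Measure Ω)
    [IsProbabilityMeasure P] (w : Site → Ω → ℝ) (hw : ∀ x, Measurable (w x))
    (hi : iIndepFun w P) (hl : ∀ x, P.map (w x) = cond volume (Set.Icc (-1) 1)) :
    ∀ᵐ o ∂P, PurePoint (fun x => lam * w x o) := by
  have hm : Measurable fun (o : Ω) (x : Site) => w x o := measurable_pi_lambda _ hw
  have : IsProbabilityMeasure (P.map fun (o : Ω) (x : Site) => w x o) :=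
    Measure.isProbabilityMeasure_map hm.aemeasurable
  have h1 : ∀ x : Site, (P.map fun (o : Ω) (x : Site) => w x o).map (fun v : Site → ℝ => v x) =
      cond volume (Set.Icc (-1) 1) := by
    intro x
    rw [Measure.map_map (measurable_pi_apply x) hm]
    exact hl x
  have h2 : iIndepFun (fun (x : Site) (v : Site → ℝ) => v x)
      (P.map fun (o : Ω) (x : Site) => w x o) := by
    rw [iIndepFun_iff_map_fun_eq_infinitePi_map (fun x => measurable_pi_apply x)]
    have h3 := (iIndepFun_iff_map_fun_eq_infinitePi_map hw).1 hi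
    have h5 : (fun i : Site => (P.map fun (o : Ω) (x : Site) => w x o).map
        (fun v : Site → ℝ => v i)) = fun i => P.map (w i) := by
      funext x
      rw [h1 x, hl x]
    rw [show (fun (v : Site → ℝ) (x : Site) => v x) = id from rfl, Measure.map_id, h5]
    exact h3
  have h4 := H (Site → ℝ) (P.map fun (o : Ω) (x : Site) => w x o) (fun x v => v x)
    (fun x => measurable_pi_apply x) h2 h1
  exact ae_of_ae_map hm.aemeasurable h4

/-- **the hand-in text** -/
theorem text_of {Q0 : ∀ (N : ℕ) [NeZero N], StW N → ℝ → (ℝ → ℝ) → ℝ → Prop} (hX : XThm Q0)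
    (hK : KBind Q0) (hT : TorSmall) :
    (∀ lam : ℝ, 0 < lam → ∀ {Ω : Type*} [MeasurableSpace Ω] (P : Measure Ω)
      [IsProbabilityMeasure P] (w : Site → Ω → ℝ), (∀ x, Measurable (w x)) → iIndepFun w P →
      (∀ x, P.map (w x) = cond volume (Set.Icc (-1) 1)) →
      ∀ᵐ o ∂P, PurePoint (fun x => lam * w x o) ∧ AtomicSpectrum (fun x => lam * w x o)) ∧
    (∀ (V : Site → ℝ) (ψ : L2), ∃ μ : Measure ℝ, IsSpectralMeasure V ψ μ ∧
      μ.real Set.univ = ‖ψ‖ ^ 2) := by
  refine ⟨?_, exists_spectralMeasure⟩
  intro lam hlam Ω _ P _ w hw hi hl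
  filter_upwards [q2_univ (q2_final hX hK hT hlam) P w hw hi hl] with o ho
  exact ⟨ho, fun ψ μ hμ => Inf.spectral_atomic ho hμ⟩

end P365T2.H213
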