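import Vale.Agent.P365.T2.H213.TopZ
import Vale.Agent.P365.T2.H756.OmAv

/-!
# P365-T2: full Q2 (helper213)
-/

set_option linter.all false

namespace P365T2.H213

open P365T2.H963 P365T2.X629 P365T2.H912

/-- weak content fact (756) -/
theorem omF {lam E C1 : ℝ} (hlam : 0 < lam) (hC1 : 0 < C1) : P365T2.H259.OmF lam E C1 := by
  intro θ hθ hθ1
  obtain ⟨C, hC, H⟩ := P365H756.om_field (E := E) hlam hC1 θ hθ hθ1
  refine ⟨C, hC, fun k hk => ?_⟩
  obtain ⟨C', hC', T₀, hT₀, H⟩ := H k hk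
  refine ⟨C', hC', T₀, hT₀, fun T hT g hg ε hε hε1 N _ W hW τ hτ => ?_⟩
  exact H T hT g hg ε hε hε1 ⟨N, W, hW, τ, hτ⟩

/-- **full Q2** -/
theorem goal.{u} : Goal.{u} := goal_of_om fun _ _ _ h1 _ h3 => omF h1 h3

end P365T2.H213
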