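import Vale.Agent.P365.T2.H213.Goal
import Vale.Agent.P365.T2.H963.XFin
import Vale.Agent.P365.T2.H704.KBindQ

/-!
# P365-T2: Q2 from the open parts (helper213)
-/

set_option linter.all false

namespace P365T2.H213

open P365T2.H963 P365T2.H831 P365T2.H912 P365T2.H784

/-- **Q2 from the four open parts of the X side and `TorSmall`** -/
theorem goal_of_parts.{u}
    (hOne : ∀ lam E C1 : ℝ, 0 < lam → |E| < 4 + lam → 0 < C1 → OneX lam E C1)
    (hU : ∀ lam E C1 : ℝ, 0 < lam → |E| < 4 + lam → 0 < C1 →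
      UPartA 6 lam E C1 (EnF C1 E) (LossFn C1 E) (PosF C1 E))
    (hQ : ∀ (lam E C1 : ℝ) (gf : ℝ → ℝ), 0 < lam → |E| < 4 + lam → 0 < C1 → (∀ ρ, 1 ≤ gf ρ) →
      QPart Q0 lam E C1 gf (FBn E C1)) (hT : TorSmall) : Goal.{u} :=
  goal_of (xthm_of_parts hOne hU hQ) P365T2.H704.kbind hT

end P365T2.H213
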