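import Vale.Agent.P365.T2.H213.Goal
import Vale.Agent.P365.T2.H963.XFin
import Vale.Agent.P365.T2.H704.KBindQ
import Vale.Agent.P365.T2.H937.QFin
import Vale.Agent.P365.T2.H512.TorSmall
import Vale.Agent.P365.T2.H831.UPart2

/-!
# P365-T2: Q2 from the two open parts: `OneXE` (static step) and `ULaw` (law error) (helper213)
-/

set_option linter.all false

namespace P365T2.H213

open P365T2.H963 P365T2.H831 P365T2.H912 P365T2.H784

/-- **Q2 from the two open parts** -/
theorem goal_of_two.{u}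
    (hOne : ∀ lam E C1 : ℝ, 0 < lam → |E| < 4 + lam → 0 < C1 →
      ∃ Err : Fn, ErrPart lam E C1 Err ∧ OneXE lam E C1 Err)
    (hL : ∀ lam E C1 : ℝ, 0 < lam → |E| < 4 + lam → 0 < C1 → ULaw lam E C1) : Goal.{u} :=
  goal_of (xthm_gen hOne (fun lam E C1 h1 h2 h3 => uPart_of_law h1 h3 (hL lam E C1 h1 h2 h3))
    P365T2.H937.qPartX) P365T2.H704.kbind P365T2.H512.torSmall

end P365T2.H213
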