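import Vale.Agent.P365.T2.H213.TopY
import Vale.Agent.P365.T2.H869.ULaw
import Vale.Agent.P365.T2.H259.One
import Vale.Agent.P365.T2.H863.Res

/-!
# P365-T2: Q2 from the last open part `OmF` (helper213)
-/

set_option linter.all false

namespace P365T2.H213

open P365T2.H963 P365T2.H831 P365T2.H912 P365T2.H784

/-- residual part of the static step (863) -/
theorem resF {lam E C1 : ℝ} (hlam : 0 < lam) : P365T2.H259.ResF lam E C1 := by
  intro ε1 h1 h1' ε2 h2 h2'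
  exact ⟨P365T2.H863.CRes lam E ε1 ε2, P365T2.H863.CRes_pos hlam h1 h2,
    fun N _ W hW τ _ => P365T2.H863.SmX_le hlam hW h1 h2 τ⟩

/-- **Q2 from the last open part** -/
theorem goal_of_om.{u}
    (hOm : ∀ lam E C1 : ℝ, 0 < lam → |E| < 4 + lam → 0 < C1 → P365T2.H259.OmF lam E C1) :
    Goal.{u} :=
  goal_of (xthm_gen (fun lam E C1 h1 h2 h3 => ⟨FErr E C1, fun ε hε => by
      obtain ⟨η₀, hη₀, h4⟩ := P365T2.X629.err_small h3 hε
      exact ⟨η₀, hη₀, fun N _ W _ h τ hτ => h4 W η₀ hη₀ le_rfl h τ ⟨hτ.1.le, hτ.2.le⟩⟩,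
      P365T2.H259.oneX_of h1 (resF h1) (hOm lam E C1 h1 h2 h3)⟩)
    (fun lam E C1 h1 _ h3 => P365T2.H869.uPart h1 E C1 h3)
    P365T2.H937.qPartX) P365T2.H704.kbind P365T2.H512.torSmall

end P365T2.H213
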